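import Crest.Agent.Helper89.SW.TwoPair

/-!
# S0453, WP-E2 (helper89), layer 2: the diamond inequality on a coordinatised finite set

`Cross Φ r s sg X Xv Y Yh`: the finite set `Φ` carries a row coordinate `r`, a column coordinate
`s` and a sign `sg`; `(r, s, sg)` is injective on `Φ` and its image is the "cross"
`(Xv × Y × {-}) ∪ (X × Yh × {-}) ∪ (X × Y × {+,-})` (vertical arm, horizontal arm, doubled
centre).  `Cross.ineq` is the two-pair inequality on such a set, for the class relations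
"same column" and "same row"; it is `cross_ineq` of `TwoPair.lean` transported along the
coordinates.  Only Mathlib and `TwoPair.lean` are used.
-/

set_option autoImplicit false

namespace Crest.Agent.Helper89.SW

open Finset

section CrossT

variable {Ω ξ υ : Type*} [DecidableEq ξ] [DecidableEq υ]

/-- average of `f` over the points of `Φ` whose key `k` has the value `c`. -/
noncomputable def kavg {κ : Type*} [DecidableEq κ] (Φ : Finset Ω) (k : Ω → κ) (f : Ω → ℝ)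
    (c : κ) : ℝ :=
  (∑ y ∈ Φ.filter (fun y => k y = c), f y) / ((Φ.filter (fun y => k y = c)).card : ℝ)

/-- cross coordinates on a finite set. -/
structure Cross (Φ : Finset Ω) (r : Ω → ξ) (s : Ω → υ) (sg : Ω → Bool)
    (X Xv : Finset ξ) (Y Yh : Finset υ) : Prop where
  inj : ∀ x ∈ Φ, ∀ y ∈ Φ, r x = r y → s x = s y → sg x = sg y → x = y
  mem : ∀ ρ σ b, (∃ x ∈ Φ, r x = ρ ∧ s x = σ ∧ sg x = b) ↔
    ((ρ ∈ Xv ∧ σ ∈ Y ∧ b = false) ∨ (ρ ∈ X ∧ σ ∈ Yh ∧ b = false) ∨ (ρ ∈ X ∧ σ ∈ Y))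
  disjX : Disjoint X Xv
  disjY : Disjoint Y Yh

variable {Φ : Finset Ω} {r : Ω → ξ} {s : Ω → υ} {sg : Ω → Bool} {X Xv : Finset ξ}
  {Y Yh : Finset υ}

/-- rows and columns may be exchanged. -/
theorem Cross.swap (h : Cross Φ r s sg X Xv Y Yh) : Cross Φ s r sg Y Yh X Xv where
  inj := fun x hx y hy hs hr hb => h.inj x hx y hy hr hs hb
  mem := by
    intro σ ρ b
    have h1 : (∃ x ∈ Φ, s x = σ ∧ r x = ρ ∧ sg x = b) ↔ (∃ x ∈ Φ, r x = ρ ∧ s x = σ ∧ sg x = b) := by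
      constructor
      · rintro ⟨x, hx, h1, h2, h3⟩; exact ⟨x, hx, h2, h1, h3⟩
      · rintro ⟨x, hx, h1, h2, h3⟩; exact ⟨x, hx, h2, h1, h3⟩
    rw [h1, h.mem ρ σ b]
    tauto
  disjX := h.disjY
  disjY := h.disjX

/-- transport of a sum over `Φ` to the cross. -/
theorem Cross.sum_eq (h : Cross Φ r s sg X Xv Y Yh) (F : ξ → υ → Bool → ℝ) :
    ∑ x ∈ Φ, F (r x) (s x) (sg x)
      = (∑ ρ ∈ Xv, ∑ σ ∈ Y, F ρ σ false) + (∑ ρ ∈ X, ∑ σ ∈ Yh, F ρ σ false)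
        + (∑ ρ ∈ X, ∑ σ ∈ Y, (F ρ σ true + F ρ σ false)) := by
  classical
  have himg : Φ.image (fun x => (r x, s x, sg x))
      = ((Xv ×ˢ (Y ×ˢ ({false} : Finset Bool))) ∪ (X ×ˢ (Yh ×ˢ ({false} : Finset Bool))))
          ∪ (X ×ˢ (Y ×ˢ (Finset.univ : Finset Bool))) := by
    ext ⟨ρ, σ, b⟩
    simp only [Finset.mem_image, Finset.mem_union, Finset.mem_product, Finset.mem_singleton,
      Finset.mem_univ, and_true, Prod.mk.injEq]
    rw [h.mem ρ σ b, or_assoc]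
  have hinj : Set.InjOn (fun x => (r x, s x, sg x)) (Φ : Set Ω) := by
    intro x hx y hy hxy
    simp only [Prod.mk.injEq] at hxy
    exact h.inj x (Finset.mem_coe.1 hx) y (Finset.mem_coe.1 hy) hxy.1 hxy.2.1 hxy.2.2
  have e1 : ∑ x ∈ Φ, F (r x) (s x) (sg x)
      = ∑ t ∈ Φ.image (fun x => (r x, s x, sg x)), F t.1 t.2.1 t.2.2 := by
    rw [Finset.sum_image hinj]
  have hd1 : Disjoint (Xv ×ˢ (Y ×ˢ ({false} : Finset Bool)))
      (X ×ˢ (Yh ×ˢ ({false} : Finset Bool))) :=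
    Finset.disjoint_product.2 (Or.inl h.disjX.symm)
  have hd2 : Disjoint ((Xv ×ˢ (Y ×ˢ ({false} : Finset Bool)))
      ∪ (X ×ˢ (Yh ×ˢ ({false} : Finset Bool)))) (X ×ˢ (Y ×ˢ (Finset.univ : Finset Bool))) :=
    Finset.disjoint_union_left.2 ⟨Finset.disjoint_product.2 (Or.inl h.disjX.symm),
      Finset.disjoint_product.2 (Or.inr (Finset.disjoint_product.2 (Or.inl h.disjY.symm)))⟩
  rw [e1, himg, Finset.sum_union hd2, Finset.sum_union hd1]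
  simp only [Finset.sum_product, Finset.sum_singleton, Fintype.sum_bool]

/-- sum over a column of the centre block. -/
theorem Cross.col_sum (h : Cross Φ r s sg X Xv Y Yh) (F : ξ → υ → Bool → ℝ) {σ0 : υ}
    (hσ : σ0 ∈ Y) :
    ∑ y ∈ Φ.filter (fun y => s y = σ0), F (r y) (s y) (sg y)
      = (∑ ρ ∈ Xv, F ρ σ0 false) + (∑ ρ ∈ X, (F ρ σ0 true + F ρ σ0 false)) := by
  have hσ' : σ0 ∉ Yh := fun h' => Finset.disjoint_left.1 h.disjY hσ h'
  rw [Finset.sum_filter, h.sum_eq (fun ρ σ b => if σ = σ0 then F ρ σ b else 0)]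
  simp [Finset.sum_add_distrib, hσ, hσ']

/-- sum over a column of the horizontal arm. -/
theorem Cross.col_sum_h (h : Cross Φ r s sg X Xv Y Yh) (F : ξ → υ → Bool → ℝ) {σ0 : υ}
    (hσ : σ0 ∈ Yh) :
    ∑ y ∈ Φ.filter (fun y => s y = σ0), F (r y) (s y) (sg y) = ∑ ρ ∈ X, F ρ σ0 false := by
  have hσ' : σ0 ∉ Y := fun h' => Finset.disjoint_left.1 h.disjY h' hσ
  rw [Finset.sum_filter, h.sum_eq (fun ρ σ b => if σ = σ0 then F ρ σ b else 0)]
  simp [Finset.sum_add_distrib, hσ, hσ']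

/-- sum over the centre part of a column. -/
theorem Cross.col_sum_c (h : Cross Φ r s sg X Xv Y Yh) {P : Ω → Prop} [DecidablePred P]
    (hP : ∀ x ∈ Φ, P x ↔ (r x ∈ X ∧ s x ∈ Y)) (F : ξ → υ → Bool → ℝ) {σ0 : υ} (hσ : σ0 ∈ Y) :
    ∑ y ∈ Φ.filter (fun y => s y = σ0 ∧ P y), F (r y) (s y) (sg y)
      = ∑ ρ ∈ X, (F ρ σ0 true + F ρ σ0 false) := by
  have e : ∑ y ∈ Φ.filter (fun y => s y = σ0 ∧ P y), F (r y) (s y) (sg y)
      = ∑ y ∈ Φ.filter (fun y => s y = σ0),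
          (if r y ∈ X then F (r y) (s y) (sg y) else 0) := by
    rw [← Finset.filter_filter, Finset.sum_filter]
    refine Finset.sum_congr rfl (fun y hy => ?_)
    obtain ⟨hyΦ, hys⟩ := Finset.mem_filter.1 hy
    have hPy : P y ↔ r y ∈ X := by
      rw [hP y hyΦ, hys]; exact ⟨fun h => h.1, fun h => ⟨h, hσ⟩⟩
    by_cases hX : r y ∈ X
    · rw [if_pos (hPy.2 hX), if_pos hX]
    · rw [if_neg (fun hp => hX (hPy.1 hp)), if_neg hX]
  rw [e, h.col_sum (fun ρ σ b => if ρ ∈ X then F ρ σ b else 0) hσ]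
  have hz : ∑ ρ ∈ Xv, (if ρ ∈ X then F ρ σ0 false else 0) = 0 :=
    Finset.sum_eq_zero (fun ρ hρ => if_neg (fun hX => Finset.disjoint_left.1 h.disjX hX hρ))
  have hc : ∑ ρ ∈ X, ((if ρ ∈ X then F ρ σ0 true else 0) + (if ρ ∈ X then F ρ σ0 false else 0))
      = ∑ ρ ∈ X, (F ρ σ0 true + F ρ σ0 false) :=
    Finset.sum_congr rfl (fun ρ hρ => by rw [if_pos hρ, if_pos hρ])
  rw [hz, hc, zero_add]

theorem card_cast_eq_sum {ι : Type*} (S : Finset ι) : (S.card : ℝ) = ∑ _y ∈ S, (1 : ℝ) := by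
  simp

/-- the class average of a centre column. -/
theorem Cross.kavg_col (h : Cross Φ r s sg X Xv Y Yh) {f : Ω → ℝ} {g : ξ → υ → Bool → ℝ}
    (hg : ∀ x ∈ Φ, g (r x) (s x) (sg x) = f x) {σ0 : υ} (hσ : σ0 ∈ Y) :
    kavg Φ s f σ0 = ((∑ ρ ∈ Xv, g ρ σ0 false) + (∑ ρ ∈ X, (g ρ σ0 true + g ρ σ0 false)))
        / ((Xv.card : ℝ) + 2 * (X.card : ℝ)) := by
  have e1 : ∑ y ∈ Φ.filter (fun y => s y = σ0), f y
      = ∑ y ∈ Φ.filter (fun y => s y = σ0), g (r y) (s y) (sg y) :=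
    Finset.sum_congr rfl (fun y hy => (hg y (Finset.mem_filter.1 hy).1).symm)
  have e2 : ((Φ.filter (fun y => s y = σ0)).card : ℝ) = (Xv.card : ℝ) + 2 * (X.card : ℝ) := by
    rw [card_cast_eq_sum (Φ.filter (fun y => s y = σ0)), h.col_sum (fun _ _ _ => (1 : ℝ)) hσ]
    simp only [Finset.sum_const, nsmul_eq_mul]
    ring
  rw [kavg, e1, e2, h.col_sum g hσ]

/-- the class average of a column of the horizontal arm. -/
theorem Cross.kavg_col_h (h : Cross Φ r s sg X Xv Y Yh) {f : Ω → ℝ} {g : ξ → υ → Bool → ℝ}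
    (hg : ∀ x ∈ Φ, g (r x) (s x) (sg x) = f x) {σ0 : υ} (hσ : σ0 ∈ Yh) :
    kavg Φ s f σ0 = (∑ ρ ∈ X, g ρ σ0 false) / (X.card : ℝ) := by
  have e1 : ∑ y ∈ Φ.filter (fun y => s y = σ0), f y
      = ∑ y ∈ Φ.filter (fun y => s y = σ0), g (r y) (s y) (sg y) :=
    Finset.sum_congr rfl (fun y hy => (hg y (Finset.mem_filter.1 hy).1).symm)
  have e2 : ((Φ.filter (fun y => s y = σ0)).card : ℝ) = (X.card : ℝ) := by
    rw [card_cast_eq_sum (Φ.filter (fun y => s y = σ0)), h.col_sum_h (fun _ _ _ => (1 : ℝ)) hσ]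
    simp only [Finset.sum_const, nsmul_eq_mul, mul_one]
  rw [kavg, e1, e2, h.col_sum_h g hσ]

/-- a sum over the centre states. -/
theorem Cross.sum_centre (h : Cross Φ r s sg X Xv Y Yh) (K : ξ → υ → ℝ) :
    ∑ x ∈ Φ, (if r x ∈ X ∧ s x ∈ Y then K (r x) (s x) else 0)
      = ∑ ρ ∈ X, ∑ σ ∈ Y, 2 * K ρ σ := by
  rw [h.sum_eq (fun ρ σ _ => if ρ ∈ X ∧ σ ∈ Y then K ρ σ else 0)]
  have z1 : (∑ ρ ∈ Xv, ∑ σ ∈ Y, (if ρ ∈ X ∧ σ ∈ Y then K ρ σ else 0)) = 0 :=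
    Finset.sum_eq_zero (fun _ hρ => Finset.sum_eq_zero (fun _ _ =>
      if_neg (fun hc => Finset.disjoint_left.1 h.disjX hc.1 hρ)))
  have z2 : (∑ ρ ∈ X, ∑ σ ∈ Yh, (if ρ ∈ X ∧ σ ∈ Y then K ρ σ else 0)) = 0 :=
    Finset.sum_eq_zero (fun ρ _ => Finset.sum_eq_zero (fun σ hσ =>
      if_neg (fun hc => Finset.disjoint_left.1 h.disjY hc.2 hσ)))
  have z3 : (∑ ρ ∈ X, ∑ σ ∈ Y, ((if ρ ∈ X ∧ σ ∈ Y then K ρ σ else 0)
      + (if ρ ∈ X ∧ σ ∈ Y then K ρ σ else 0))) = ∑ ρ ∈ X, ∑ σ ∈ Y, 2 * K ρ σ :=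
    Finset.sum_congr rfl (fun ρ hρ => Finset.sum_congr rfl (fun σ hσ => by
      rw [if_pos ⟨hρ, hσ⟩]; ring))
  rw [z1, z2, z3, zero_add, zero_add]

/-- a sum over the `+` centre states. -/
theorem Cross.sum_plus (h : Cross Φ r s sg X Xv Y Yh) (K : ξ → υ → ℝ) :
    ∑ x ∈ Φ, (if sg x = true then K (r x) (s x) else 0) = ∑ ρ ∈ X, ∑ σ ∈ Y, K ρ σ := by
  rw [h.sum_eq (fun ρ σ b => if b = true then K ρ σ else 0)]
  simp

/-- the Bad term in cross coordinates. -/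
theorem Cross.bad_eq (h : Cross Φ r s sg X Xv Y Yh) {P : Ω → Prop} [DecidablePred P]
    (hP : ∀ x ∈ Φ, P x ↔ (r x ∈ X ∧ s x ∈ Y)) {f : Ω → ℝ} {g : ξ → υ → Bool → ℝ}
    (hg : ∀ x ∈ Φ, g (r x) (s x) (sg x) = f x) :
    ∑ x ∈ Φ.filter P, ((∑ y ∈ Φ.filter (fun y => s y = s x ∧ P y), f y)
          / ((Φ.filter (fun y => s y = s x ∧ P y)).card : ℝ) - kavg Φ s f (s x)) ^ 2
      = ∑ ρ ∈ X, ∑ σ ∈ Y, 2 * ((∑ ρ' ∈ X, (g ρ' σ true + g ρ' σ false)) / (2 * (X.card : ℝ))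
          - kavg Φ s f σ) ^ 2 := by
  rw [← h.sum_centre (fun _ σ => ((∑ ρ' ∈ X, (g ρ' σ true + g ρ' σ false)) / (2 * (X.card : ℝ))
          - kavg Φ s f σ) ^ 2), Finset.sum_filter]
  refine Finset.sum_congr rfl (fun x hx => ?_)
  by_cases hPx : P x
  · have hXY := (hP x hx).1 hPx
    rw [if_pos hPx, if_pos hXY]
    have e1 : ∑ y ∈ Φ.filter (fun y => s y = s x ∧ P y), f y
        = ∑ y ∈ Φ.filter (fun y => s y = s x ∧ P y), g (r y) (s y) (sg y) :=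
      Finset.sum_congr rfl (fun y hy => (hg y (Finset.mem_filter.1 hy).1).symm)
    have e2 : ((Φ.filter (fun y => s y = s x ∧ P y)).card : ℝ) = 2 * (X.card : ℝ) := by
      rw [card_cast_eq_sum (Φ.filter (fun y => s y = s x ∧ P y)),
        h.col_sum_c hP (fun _ _ _ => (1 : ℝ)) hXY.2]
      simp only [Finset.sum_const, nsmul_eq_mul]
      ring
    rw [e1, e2, h.col_sum_c hP g hXY.2]
  · rw [if_neg hPx, if_neg (fun hXY => hPx ((hP x hx).2 hXY))]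

/-- the switch energy in cross coordinates. -/
theorem Cross.sw_eq (h : Cross Φ r s sg X Xv Y Yh) {f : Ω → ℝ} {g : ξ → υ → Bool → ℝ}
    (hg : ∀ x ∈ Φ, g (r x) (s x) (sg x) = f x) :
    (∑ x ∈ Φ, ∑ y ∈ Φ,
        if (sg x = true ∧ sg y = false ∧ r y = r x ∧ s y = s x) then (f x - f y) ^ 2 else 0)
      = ∑ ρ ∈ X, ∑ σ ∈ Y, (g ρ σ true - g ρ σ false) ^ 2 := by
  rw [← h.sum_plus (fun ρ σ => (g ρ σ true - g ρ σ false) ^ 2)]
  refine Finset.sum_congr rfl (fun x hx => ?_)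
  by_cases hb : sg x = true
  · rw [if_pos hb]
    have hm : r x ∈ X ∧ s x ∈ Y := by
      rcases (h.mem (r x) (s x) true).1 ⟨x, hx, rfl, rfl, hb⟩ with h1 | h1 | h1
      · exact absurd h1.2.2 (by simp)
      · exact absurd h1.2.2 (by simp)
      · exact h1
    obtain ⟨y0, hy0, hr0, hs0, hb0⟩ := (h.mem (r x) (s x) false).2 (Or.inr (Or.inr hm))
    rw [Finset.sum_eq_single_of_mem y0 hy0 (fun y hy hne => if_neg (fun hc => hne
      (h.inj y hy y0 hy0 (hc.2.2.1.trans hr0.symm) (hc.2.2.2.trans hs0.symm)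
        (hc.2.1.trans hb0.symm))))]
    rw [if_pos ⟨hb, hb0, hr0, hs0⟩]
    have e1 : g (r x) (s x) true = f x := by rw [← hb]; exact hg x hx
    have e2 : g (r x) (s x) false = f y0 := by rw [← hr0, ← hs0, ← hb0]; exact hg y0 hy0
    rw [e1, e2]
  · rw [if_neg hb]
    exact Finset.sum_eq_zero (fun y _ => if_neg (fun hc => hb hc.1))

/-- the inner product term in cross coordinates. -/
theorem Cross.ip_eq (h : Cross Φ r s sg X Xv Y Yh) {f : Ω → ℝ} {g : ξ → υ → Bool → ℝ}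
    (hg : ∀ x ∈ Φ, g (r x) (s x) (sg x) = f x) (qv : υ → ℝ) (qh : ξ → ℝ) :
    ∑ x ∈ Φ, (f x - qv (s x)) * (f x - qh (r x))
      = (∑ ρ ∈ Xv, ∑ σ ∈ Y, (g ρ σ false - qv σ) * (g ρ σ false - qh ρ))
        + (∑ ρ ∈ X, ∑ σ ∈ Yh, (g ρ σ false - qv σ) * (g ρ σ false - qh ρ))
        + (∑ ρ ∈ X, ∑ σ ∈ Y, ((g ρ σ true - qv σ) * (g ρ σ true - qh ρ)
            + (g ρ σ false - qv σ) * (g ρ σ false - qh ρ))) := by
  rw [← h.sum_eq (fun ρ σ b => (g ρ σ b - qv σ) * (g ρ σ b - qh ρ))]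
  exact Finset.sum_congr rfl (fun x hx => by rw [hg x hx])

/-- **The two-pair inequality on a set with cross coordinates** (diamond fibre): switch energy
minus the two Bad terms is at most twice the inner product of the two residuals.  `P` is the
centre predicate. -/
theorem Cross.ineq (h : Cross Φ r s sg X Xv Y Yh) (P : Ω → Prop) [DecidablePred P]
    (hP : ∀ x ∈ Φ, P x ↔ (r x ∈ X ∧ s x ∈ Y)) (f : Ω → ℝ) :
    (∑ x ∈ Φ, ∑ y ∈ Φ,
        if (sg x = true ∧ sg y = false ∧ r y = r x ∧ s y = s x) then (f x - f y) ^ 2 else 0)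
      - (∑ x ∈ Φ.filter P, ((∑ y ∈ Φ.filter (fun y => s y = s x ∧ P y), f y)
          / ((Φ.filter (fun y => s y = s x ∧ P y)).card : ℝ) - kavg Φ s f (s x)) ^ 2)
      - (∑ x ∈ Φ.filter P, ((∑ y ∈ Φ.filter (fun y => r y = r x ∧ P y), f y)
          / ((Φ.filter (fun y => r y = r x ∧ P y)).card : ℝ) - kavg Φ r f (r x)) ^ 2)
      ≤ 2 * ∑ x ∈ Φ, (f x - kavg Φ s f (s x)) * (f x - kavg Φ r f (r x)) := by
  classical
  obtain ⟨g, hg⟩ : ∃ g : ξ → υ → Bool → ℝ, ∀ x ∈ Φ, g (r x) (s x) (sg x) = f x := by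
    refine ⟨fun ρ σ b => ∑ x ∈ Φ.filter (fun x => r x = ρ ∧ s x = σ ∧ sg x = b), f x,
      fun x hx => ?_⟩
    exact Finset.sum_eq_single_of_mem x (Finset.mem_filter.2 ⟨hx, rfl, rfl, rfl⟩)
      (fun y hy hne => absurd (h.inj y (Finset.mem_filter.1 hy).1 x hx
        (Finset.mem_filter.1 hy).2.1 (Finset.mem_filter.1 hy).2.2.1
        (Finset.mem_filter.1 hy).2.2.2) hne)
  have hPs : ∀ x ∈ Φ, P x ↔ (s x ∈ Y ∧ r x ∈ X) := fun x hx => (hP x hx).trans and_comm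
  have hb2 := h.swap.bad_eq (g := fun σ ρ b => g ρ σ b) hPs hg
  rw [Finset.sum_comm] at hb2
  rw [h.sw_eq hg, h.bad_eq hP hg, hb2, h.ip_eq hg (kavg Φ s f) (kavg Φ r f)]
  exact cross_ineq X Xv Y Yh (fun ρ σ => g ρ σ false) (fun ρ σ => g ρ σ false)
    (fun ρ σ => g ρ σ true) (fun ρ σ => g ρ σ false) (kavg Φ s f) (kavg Φ r f) (kavg Φ r f)
    (kavg Φ s f)
    (fun σ hσ => h.kavg_col hg hσ)
    (fun ρ hρ => h.swap.kavg_col (g := fun σ ρ b => g ρ σ b) hg hρ)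
    (fun ρ hρ => h.swap.kavg_col_h (g := fun σ ρ b => g ρ σ b) hg hρ)
    (fun σ hσ => h.kavg_col_h hg hσ)

end CrossT

end Crest.Agent.Helper89.SW
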