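import Crest.Agent.Helper89.SW.Cross
import Crest.Agent.Helper17.SW.TwoPairSpec

/-!
# S0453, WP-E2 (helper89): `Crest.Agent.Helper17.SW.DiaStmt`

The two-pair lemma on a diamond fibre in helper17's transport form, from `Cross.ineq`
(`Cross.lean`) with row coordinate `(rho, A)`, column coordinate `(kap, C)` and sign `M = cp`.
-/

set_option autoImplicit false

namespace Crest.Agent.Helper89.SW

open Finset Crest.Agent.Helper17.SW

theorem blk2_fwd : ∀ μ : Blk4, μ.tot = 2 →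
    (((μ.rho = 2 ∨ μ.rho = 0) ∧ μ.kap = 1 ∧ decide (μ = Blk4.cp) = false) ∨
     (μ.rho = 1 ∧ (μ.kap = 2 ∨ μ.kap = 0) ∧ decide (μ = Blk4.cp) = false) ∨
     (μ.rho = 1 ∧ μ.kap = 1)) := by decide

theorem blk2_inj : ∀ μ ν : Blk4, μ.tot = 2 → ν.tot = 2 → μ.rho = ν.rho → μ.kap = ν.kap →
    decide (μ = Blk4.cp) = decide (ν = Blk4.cp) → μ = ν := by decide

theorem blk2_ctr : ∀ μ : Blk4, μ.tot = 2 → (μ.ctr ↔ (μ.rho = 1 ∧ μ.kap = 1)) := by decide

theorem blk2_cm : ∀ μ : Blk4, μ.tot = 2 → μ.rho = Blk4.cp.rho → μ.kap = Blk4.cp.kap →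
    ¬ μ = Blk4.cp → μ = Blk4.cm := by decide

section

variable {X L L' 𝒜 𝒞 : Type*} [DecidableEq L] [DecidableEq L'] [DecidableEq 𝒜] [DecidableEq 𝒞]
  {Φ : Finset X} {ℓ : X → L} {ℓ' : X → L'} {M : X → Blk4} {A : X → 𝒜} {C : X → 𝒞}
  {As : ℕ → Finset 𝒜} {Cs : ℕ → Finset 𝒞}

/-- a diamond fibre (block sum `2`) carries cross coordinates. -/
theorem cross_of_coords (h : Coords Φ ℓ ℓ' M A C 2 As Cs) :
    Cross Φ (fun x => ((M x).rho, A x)) (fun x => ((M x).kap, C x))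
      (fun x => decide (M x = Blk4.cp))
      (({1} : Finset ℕ) ×ˢ As 1) ((({2} : Finset ℕ) ×ˢ As 2) ∪ (({0} : Finset ℕ) ×ˢ As 0))
      (({1} : Finset ℕ) ×ˢ Cs 1) ((({2} : Finset ℕ) ×ˢ Cs 2) ∪ (({0} : Finset ℕ) ×ˢ Cs 0)) where
  inj := by
    intro x hx y hy hr hs hb
    simp only [Prod.mk.injEq] at hr hs
    have tx := ((h.img (M x) (A x) (C x)).1 ⟨x, hx, rfl, rfl, rfl⟩).1
    have ty := ((h.img (M y) (A y) (C y)).1 ⟨y, hy, rfl, rfl, rfl⟩).1
    exact h.inj x hx y hy (blk2_inj _ _ tx ty hr.1 hs.1 hb) hr.2 hs.2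
  mem := by
    rintro ⟨i, a⟩ ⟨j, c⟩ b
    simp only [Finset.mem_union, Finset.mem_product, Finset.mem_singleton, Prod.mk.injEq]
    constructor
    · rintro ⟨x, hx, ⟨rfl, rfl⟩, ⟨rfl, rfl⟩, rfl⟩
      obtain ⟨ht, ha, hc⟩ := (h.img (M x) (A x) (C x)).1 ⟨x, hx, rfl, rfl, rfl⟩
      rcases blk2_fwd (M x) ht with ⟨h1, h2, h3⟩ | ⟨h1, h2, h3⟩ | ⟨h1, h2⟩
      · left
        refine ⟨?_, ⟨h2, by rw [h2] at hc; exact hc⟩, h3⟩
        rcases h1 with h1 | h1
        · left; exact ⟨h1, by rw [h1] at ha; exact ha⟩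
        · right; exact ⟨h1, by rw [h1] at ha; exact ha⟩
      · right; left
        refine ⟨⟨h1, by rw [h1] at ha; exact ha⟩, ?_, h3⟩
        rcases h2 with h2 | h2
        · left; exact ⟨h2, by rw [h2] at hc; exact hc⟩
        · right; exact ⟨h2, by rw [h2] at hc; exact hc⟩
      · right; right
        exact ⟨⟨h1, by rw [h1] at ha; exact ha⟩, ⟨h2, by rw [h2] at hc; exact hc⟩⟩
    · rintro (⟨h1, ⟨rfl, hc⟩, rfl⟩ | ⟨⟨rfl, ha⟩, h2, rfl⟩ | ⟨⟨rfl, ha⟩, ⟨rfl, hc⟩⟩)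
      · rcases h1 with ⟨rfl, ha⟩ | ⟨rfl, ha⟩
        · obtain ⟨x, hx, hM, hA, hC⟩ := (h.img (true, true, false, false) a c).2 ⟨rfl, ha, hc⟩
          exact ⟨x, hx, ⟨(congrArg Blk4.rho hM).trans rfl, hA⟩,
            ⟨(congrArg Blk4.kap hM).trans rfl, hC⟩,
            (congrArg (fun μ => decide (μ = Blk4.cp)) hM).trans rfl⟩
        · obtain ⟨x, hx, hM, hA, hC⟩ := (h.img (false, false, true, true) a c).2 ⟨rfl, ha, hc⟩
          exact ⟨x, hx, ⟨(congrArg Blk4.rho hM).trans rfl, hA⟩,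
            ⟨(congrArg Blk4.kap hM).trans rfl, hC⟩,
            (congrArg (fun μ => decide (μ = Blk4.cp)) hM).trans rfl⟩
      · rcases h2 with ⟨rfl, hc⟩ | ⟨rfl, hc⟩
        · obtain ⟨x, hx, hM, hA, hC⟩ := (h.img (true, false, true, false) a c).2 ⟨rfl, ha, hc⟩
          exact ⟨x, hx, ⟨(congrArg Blk4.rho hM).trans rfl, hA⟩,
            ⟨(congrArg Blk4.kap hM).trans rfl, hC⟩,
            (congrArg (fun μ => decide (μ = Blk4.cp)) hM).trans rfl⟩
        · obtain ⟨x, hx, hM, hA, hC⟩ := (h.img (false, true, false, true) a c).2 ⟨rfl, ha, hc⟩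
          exact ⟨x, hx, ⟨(congrArg Blk4.rho hM).trans rfl, hA⟩,
            ⟨(congrArg Blk4.kap hM).trans rfl, hC⟩,
            (congrArg (fun μ => decide (μ = Blk4.cp)) hM).trans rfl⟩
      · cases b
        · obtain ⟨x, hx, hM, hA, hC⟩ := (h.img Blk4.cm a c).2 ⟨rfl, ha, hc⟩
          exact ⟨x, hx, ⟨(congrArg Blk4.rho hM).trans rfl, hA⟩,
            ⟨(congrArg Blk4.kap hM).trans rfl, hC⟩,
            (congrArg (fun μ => decide (μ = Blk4.cp)) hM).trans rfl⟩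
        · obtain ⟨x, hx, hM, hA, hC⟩ := (h.img Blk4.cp a c).2 ⟨rfl, ha, hc⟩
          exact ⟨x, hx, ⟨(congrArg Blk4.rho hM).trans rfl, hA⟩,
            ⟨(congrArg Blk4.kap hM).trans rfl, hC⟩,
            (congrArg (fun μ => decide (μ = Blk4.cp)) hM).trans rfl⟩
  disjX := by
    rw [Finset.disjoint_left]
    intro p hp hp'
    simp only [Finset.mem_union, Finset.mem_product, Finset.mem_singleton] at hp hp'
    omega
  disjY := by
    rw [Finset.disjoint_left]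
    intro p hp hp'
    simp only [Finset.mem_union, Finset.mem_product, Finset.mem_singleton] at hp hp'
    omega

/-- the centre predicate in cross coordinates. -/
theorem ctr_iff_of_coords (h : Coords Φ ℓ ℓ' M A C 2 As Cs) :
    ∀ x ∈ Φ, (M x).ctr ↔ (((M x).rho, A x) ∈ (({1} : Finset ℕ) ×ˢ As 1) ∧
      ((M x).kap, C x) ∈ (({1} : Finset ℕ) ×ˢ Cs 1)) := by
  intro x hx
  obtain ⟨ht, ha, hc⟩ := (h.img (M x) (A x) (C x)).1 ⟨x, hx, rfl, rfl, rfl⟩
  simp only [Finset.mem_product, Finset.mem_singleton]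
  rw [blk2_ctr _ ht]
  constructor
  · rintro ⟨h1, h2⟩
    exact ⟨⟨h1, by rw [h1] at ha; exact ha⟩, ⟨h2, by rw [h2] at hc; exact hc⟩⟩
  · rintro ⟨⟨h1, _⟩, ⟨h2, _⟩⟩
    exact ⟨h1, h2⟩

end

/-- **(E2b) in helper17's transport form.** -/
theorem diaStmt : DiaStmt := by
  intro X L L' 𝒜 𝒞 _ _ _ _ Φ ℓ ℓ' M A C As Cs h f
  have main := (cross_of_coords h).ineq (fun x => (M x).ctr) (ctr_iff_of_coords h) f
  have hcls : ∀ x ∈ Φ, cls Φ ℓ x
      = Φ.filter (fun y => ((M y).kap, C y) = ((M x).kap, C x)) := by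
    intro x hx
    unfold cls
    refine Finset.filter_congr (fun y hy => ?_)
    rw [h.key y hy x hx, Prod.mk.injEq]
  have hcls' : ∀ x ∈ Φ, cls Φ ℓ' x
      = Φ.filter (fun y => ((M y).rho, A y) = ((M x).rho, A x)) := by
    intro x hx
    unfold cls
    refine Finset.filter_congr (fun y hy => ?_)
    rw [h.key' y hy x hx, Prod.mk.injEq]
  refine le_of_eq_of_le ?_ (le_of_le_of_eq main ?_)
  · congr 1
    congr 1
    · unfold swC
      refine Finset.sum_congr rfl (fun x hx => Finset.sum_congr rfl (fun y hy =>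
        if_congr ?_ rfl rfl))
      have ty := ((h.img (M y) (A y) (C y)).1 ⟨y, hy, rfl, rfl, rfl⟩).1
      simp only [Prod.mk.injEq, decide_eq_true_eq, decide_eq_false_iff_not]
      constructor
      · rintro ⟨h1, h2, h3, h4⟩
        rw [h1, h2]
        exact ⟨rfl, by decide, ⟨rfl, h3⟩, ⟨rfl, h4⟩⟩
      · rintro ⟨h1, h2, ⟨h3, h3'⟩, ⟨h4, h4'⟩⟩
        rw [h1] at h3 h4
        exact ⟨h1, blk2_cm (M y) ty h3 h4 h2, h3', h4'⟩
    · unfold badC
      refine Finset.sum_congr rfl (fun x hx => ?_)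
      have hxΦ := (Finset.mem_filter.1 hx).1
      rw [avg, hcls x hxΦ, Finset.filter_filter]
      rfl
    · unfold badC
      refine Finset.sum_congr rfl (fun x hx => ?_)
      have hxΦ := (Finset.mem_filter.1 hx).1
      rw [avg, hcls' x hxΦ, Finset.filter_filter]
      rfl
  · congr 1
    refine Finset.sum_congr rfl (fun x hx => ?_)
    rw [avg, avg, hcls x hx, hcls' x hx]
    rfl

end Crest.Agent.Helper89.SW
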